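import Vale.Agent.P066.Theta.H675.Green5
import Vale.Agent.P066.Theta.ThetaE

/-!
# The group element of the maximal green sequence of `P_{N,k}`
-/

set_option autoImplicit false

open Finset

namespace Vale.Agent.P066.Theta.Green

noncomputable section

open QSeries

section general

variable {r : ℕ} {B : Matrix (Fin r) (Fin r) ℤ}

/-- Product of the dilogarithms of a list of vectors. -/
def prodL (B : Matrix (Fin r) (Fin r) ℤ) (L : List (Fin r → ℤ)) : QSeries B :=
  L.foldr (fun u acc => dilog B (toN u) * acc) 1

theorem prodL_cons (u : Fin r → ℤ) (L : List (Fin r → ℤ)) :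
    prodL B (u :: L) = dilog B (toN u) * prodL B L := rfl

theorem prodL_append (L L' : List (Fin r → ℤ)) :
    prodL B (L ++ L') = prodL B L * prodL B L' := by
  induction L with
  | nil => simp [prodL]
  | cons u L ih => rw [List.cons_append, prodL_cons, ih, prodL_cons, mul_assoc]

theorem dilog_supp {c γ : Fin r →₀ ℕ} (h : dilog B c γ ≠ 0) : ∃ m : ℕ, m • c = γ := by
  by_contra hc
  push Not at hc
  apply h
  unfold dilog
  apply Finset.sum_eq_zero
  intro m _
  rw [if_neg (hc m)]

theorem prodL_mem {S : AddSubmonoid (Fin r →₀ ℕ)} {L : List (Fin r → ℤ)}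
    (h : ∀ u ∈ L, toN u ∈ S) : prodL B L ∈ supp (B := B) S := by
  induction L with
  | nil => exact (supp (B := B) S).one_mem
  | cons u L ih =>
    rw [prodL_cons]
    refine (supp (B := B) S).mul_mem ?_ (ih fun w hw => h w (List.mem_cons_of_mem _ hw))
    intro γ hγ
    obtain ⟨m, rfl⟩ := dilog_supp hγ
    exact S.nsmul_mem (h u (List.mem_cons_self)) m

theorem mul_single {j : Fin r} (hj : B j j = 0) (f g : QSeries B) (m : ℕ) :
    (f * g) (Finsupp.single j m) =
      ∑ p ∈ antidiagonal m, f (Finsupp.single j p.1) * g (Finsupp.single j p.2) := by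
  rw [mul_apply, Finsupp.antidiagonal_single, Finset.sum_map]
  refine Finset.sum_congr rfl fun p _ => ?_
  have h0 : omega B (toZ (Finsupp.single j p.1)) (toZ (Finsupp.single j p.2)) = 0 := by
    unfold omega toZ
    apply Finset.sum_eq_zero
    intro a _
    apply Finset.sum_eq_zero
    intro b _
    by_cases ha : a = j
    · by_cases hb : b = j
      · subst ha; subst hb; simp [hj]
      · simp [Finsupp.single_apply, Ne.symm hb]
    · simp [Finsupp.single_apply, Ne.symm ha]
  simp [h0]

/-- `f` is trivial on the face of `j`. -/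
def Triv (j : Fin r) (f : QSeries B) : Prop :=
  ∀ m : ℕ, f (Finsupp.single j m) = if m = 0 then 1 else 0

theorem Triv.mul_left {j : Fin r} (hj : B j j = 0) {f g : QSeries B} (hf : Triv j f) (m : ℕ) :
    (f * g) (Finsupp.single j m) = g (Finsupp.single j m) := by
  have h0 : f 0 = 1 := by simpa using hf 0
  rw [mul_single hj, Finset.sum_eq_single (0, m)]
  · simp [h0]
  · rintro ⟨a, b⟩ hab hne
    have : a ≠ 0 := by
      rintro rfl
      apply hne
      simp at hab
      simp [hab]
    simp only [hf a, if_neg this, zero_mul]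
  · simp

theorem Triv.mul_right {j : Fin r} (hj : B j j = 0) {f g : QSeries B} (hg : Triv j g) (m : ℕ) :
    (f * g) (Finsupp.single j m) = f (Finsupp.single j m) := by
  have h0 : g 0 = 1 := by simpa using hg 0
  rw [mul_single hj, Finset.sum_eq_single (m, 0)]
  · simp [h0]
  · rintro ⟨a, b⟩ hab hne
    have : b ≠ 0 := by
      rintro rfl
      apply hne
      simp at hab
      simp [hab]
    simp only [hg b, if_neg this, mul_zero]
  · simp

theorem Triv.mul {j : Fin r} (hj : B j j = 0) {f g : QSeries B} (hf : Triv j f)
    (hg : Triv j g) : Triv j (f * g) := fun m => by rw [hf.mul_left hj, hg m]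

theorem triv_one (j : Fin r) : Triv j (1 : QSeries B) := by
  intro m
  rw [one_apply]
  simp

theorem triv_dilog {j : Fin r} {c : Fin r →₀ ℕ} (h : ∃ i, i ≠ j ∧ c i ≠ 0) :
    Triv j (dilog B c) := by
  intro m
  by_cases hm : m = 0
  · subst hm
    simp [Dil.dilog_zero_apply]
  · rw [if_neg hm]
    by_contra hne
    obtain ⟨n, hn⟩ := dilog_supp hne
    obtain ⟨i, hij, hci⟩ := h
    have h1 := DFunLike.congr_fun hn i
    have h2 := DFunLike.congr_fun hn j
    simp only [Finsupp.smul_apply, smul_eq_mul, Finsupp.single_apply, if_neg (Ne.symm hij)] at h1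
    have hn0 : n = 0 := by
      rcases Nat.mul_eq_zero.1 h1 with h | h
      · exact h
      · exact absurd h hci
    subst hn0
    simp at h2
    exact hm h2.symm

theorem triv_prodL {j : Fin r} (hj : B j j = 0) {L : List (Fin r → ℤ)}
    (h : ∀ u ∈ L, ∃ i, i ≠ j ∧ toN u i ≠ 0) : Triv j (prodL B L) := by
  induction L with
  | nil => exact triv_one j
  | cons u L ih =>
    rw [prodL_cons]
    exact (triv_dilog (h u (List.mem_cons_self))).mul hj
      (ih fun w hw => h w (List.mem_cons_of_mem _ hw))

end general

variable {N k : ℕ}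

theorem toN_apply {r : ℕ} (c : Fin r → ℤ) (i : Fin r) : toN c i = (c i).toNat := rfl

theorem toN_eps (a : Fin N) : toN (eps N ((a : ℕ) + 1)) = epsSet {a} := by
  ext j
  rw [toN_apply]
  simp only [eps, epsSet, epsExp, Finsupp.equivFunOnFinite_symm_apply_apply, mem_singleton,
    Finset.sum_ite_eq', mem_filter, mem_univ, true_and]
  by_cases h : (j : ℕ) < a + 1
  · have : j ≤ a := by rw [Fin.le_def]; omega
    simp [h, this]
  · have : ¬ j ≤ a := by rw [Fin.le_def]; omega
    simp [h, this]

theorem prodL_first : prodL (extB N k) ((List.range N).map (fun i => eps N (i + 1))) =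
    Aprod N k := by
  unfold Aprod prodL
  have e : (List.range N).map (fun i => eps N (i + 1)) =
      List.ofFn (fun a : Fin N => eps N ((a : ℕ) + 1)) := by
    rw [List.ofFn_eq_map]
    rw [← List.map_coe_finRange_eq_range, List.map_map]
    rfl
  rw [e]
  have h2 : (List.ofFn fun a : Fin N => dilog (extB N k) (epsSet {a})) =
      (List.ofFn (fun a : Fin N => eps N ((a : ℕ) + 1))).map (fun u => dilog (extB N k) (toN u)) := by
    rw [List.map_ofFn]
    congr 1
    funext a
    simp only [Function.comp_apply, toN_eps]
  rw [h2, List.foldr_map]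

theorem U_apply_zero {t : ℕ} (i : Fin N) (hi : (i : ℕ) = 0) : ∀ m : ℕ, m * (k + 1) < t →
    U N k t m i = 0 := by
  intro m
  induction m with
  | zero =>
    intro h
    simp only [U, Y]
    rw [if_neg (by omega)]
  | succ m ih =>
    intro h
    have e : U N k t (m + 1) = U N k t m + Y N (t - (m + 1) * (k + 1)) := rfl
    rw [e, Pi.add_apply, ih (mul_lt_of_le (Nat.le_succ m) h)]
    simp only [Y]
    rw [if_neg (by omega)]
    rfl

theorem U_apply_top {t : ℕ} (i : Fin N) (hi : (i : ℕ) = t) (m : ℕ) : 0 < U N k t m i := by
  induction m with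
  | zero => simp [U, Y, hi]
  | succ m ih =>
    have e : U N k t (m + 1) = U N k t m + Y N (t - (m + 1) * (k + 1)) := rfl
    rw [e, Pi.add_apply]
    have : 0 ≤ Y N (t - (m + 1) * (k + 1)) i := by simp only [Y]; split_ifs <;> omega
    omega

theorem U_apply_bot {t : ℕ} (i : Fin N) (m : ℕ) (hi : (i : ℕ) = t - m * (k + 1)) :
    0 < U N k t m i := by
  cases m with
  | zero => exact U_apply_top i (by omega) 0
  | succ m =>
    have e : U N k t (m + 1) = U N k t m + Y N (t - (m + 1) * (k + 1)) := rfl
    rw [e, Pi.add_apply]
    have h1 := U_nonneg (k := k) t m i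
    have h2 : Y N (t - (m + 1) * (k + 1)) i = 1 := by simp only [Y]; rw [if_pos hi]
    omega

theorem mem_inner {u : Fin N → ℤ} : ∀ T : ℕ, u ∈ inner N k T →
    ∃ t m, 1 ≤ t ∧ t ≤ T ∧ m * (k + 1) < t ∧ u = U N k t m := by
  intro T
  induction T with
  | zero => intro h; simp [inner] at h
  | succ T ih =>
    intro h
    simp only [inner, List.mem_append, List.mem_map, List.mem_range] at h
    rcases h with ⟨m, hm, rfl⟩ | h
    · refine ⟨T + 1, m, by omega, le_rfl, ?_, rfl⟩
      have : m * (k + 1) ≤ T := (Nat.le_div_iff_mul_le (by omega)).1 (by omega)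
      omega
    · obtain ⟨t, m, h1, h2, h3, h4⟩ := ih h
      exact ⟨t, m, h1, by omega, h3, h4⟩

theorem extB_diag (j : Fin N) : extB N k j j = 0 := by
  have := Green.extB_skew N k j j
  omega

/-- The dilogarithm of `y_j` is the only nontrivial factor on the face of `j`. -/
theorem face_inner (hk : 1 ≤ k) (j : Fin N) (hj : (j : ℕ) ≠ 0) : ∀ T : ℕ, T < N →
    ((j : ℕ) ≤ T → ∀ m, prodL (extB N k) (inner N k T) (Finsupp.single j m) = psi m) ∧
    (T < (j : ℕ) → Triv j (prodL (extB N k) (inner N k T))) := by
  intro T
  induction T with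
  | zero =>
    intro _
    refine ⟨fun h => absurd h (by omega), fun _ => ?_⟩
    exact triv_one j
  | succ T ih =>
    intro hT
    obtain ⟨ih1, ih2⟩ := ih (by omega)
    have hbb := extB_diag (k := k) j
    have key : ∀ i : ℕ, i * (k + 1) < T + 1 → (i ≠ 0 ∨ (j : ℕ) ≠ T + 1) →
        ∃ a : Fin N, a ≠ j ∧ toN (U N k (T + 1) i) a ≠ 0 := by
      intro i hi h
      by_cases hjT : (j : ℕ) = T + 1
      · have hi0 : i ≠ 0 := by
          rcases h with h | h
          · exact h
          · exact absurd hjT h
        refine ⟨⟨T + 1 - i * (k + 1), by omega⟩, ?_, ?_⟩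
        · intro hh
          have := congrArg Fin.val hh
          simp only at this
          have h1 : 1 * (k + 1) ≤ i * (k + 1) := Nat.mul_le_mul_right _ (by omega)
          omega
        · rw [toN_apply]
          have := U_apply_bot (k := k) (t := T + 1) (⟨T + 1 - i * (k + 1), by omega⟩ : Fin N) i rfl
          omega
      · refine ⟨⟨T + 1, hT⟩, ?_, ?_⟩
        · intro hh
          exact hjT (congrArg Fin.val hh).symm
        · rw [toN_apply]
          have := U_apply_top (k := k) (t := T + 1) (⟨T + 1, hT⟩ : Fin N) rfl i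
          omega
    have hdiv : ∀ i, i < T / (k + 1) + 1 → i * (k + 1) < T + 1 := by
      intro i hi
      have : i * (k + 1) ≤ T := (Nat.le_div_iff_mul_le (by omega)).1 (by omega)
      omega
    constructor
    · intro hle m
      rw [inner, prodL_append]
      by_cases hjT : (j : ℕ) = T + 1
      · -- the pass of `j`
        rw [(ih2 (by omega)).mul_right hbb, List.range_succ_eq_map, List.map_cons, prodL_cons]
        have ht : Triv j (prodL (extB N k)
            (List.map (U N k (T + 1)) (List.map Nat.succ (List.range (T / (k + 1)))))) := by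
          apply triv_prodL hbb
          intro u hu
          simp only [List.mem_map, List.mem_range] at hu
          obtain ⟨_, ⟨i, hi, rfl⟩, rfl⟩ := hu
          exact key _ (hdiv _ (by omega)) (Or.inl (by omega))
        rw [ht.mul_right hbb]
        have e : toN (U N k (T + 1) 0) = Finsupp.single j 1 := by
          ext i
          rw [toN_apply]
          simp only [U, Y, Finsupp.single_apply]
          by_cases hi : i = j
          · subst hi; simp [hjT]
          · have : (i : ℕ) ≠ T + 1 := fun h => hi (Fin.ext (by omega))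
            rw [if_neg this, if_neg (Ne.symm hi)]
            rfl
        rw [e]
        have hne : (Finsupp.single j 1 : Fin N →₀ ℕ) ≠ 0 := by simp
        have := Dil.line_smul_apply (B := extB N k) hne psi m
        rw [Finsupp.smul_single, smul_eq_mul, mul_one] at this
        rw [Dil.dilog_eq_line]
        exact this
      · have ht : Triv j (prodL (extB N k) ((List.range (T / (k + 1) + 1)).map (U N k (T + 1)))) := by
          apply triv_prodL hbb
          intro u hu
          simp only [List.mem_map, List.mem_range] at hu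
          obtain ⟨i, hi, rfl⟩ := hu
          exact key i (hdiv i hi) (Or.inr hjT)
        rw [ht.mul_left hbb]
        exact ih1 (by omega) m
    · intro hlt
      rw [inner, prodL_append]
      refine Triv.mul hbb ?_ (ih2 (by omega))
      apply triv_prodL hbb
      intro u hu
      simp only [List.mem_map, List.mem_range] at hu
      obtain ⟨i, hi, rfl⟩ := hu
      exact key i (hdiv i hi) (Or.inr (by omega))

/-- Block C5: the maximal green sequence of the extended seed of `P_{N,k}`. -/
theorem exists_green (hk : 1 ≤ k) (hN : 1 ≤ N) :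
    ∃ l, IsMaximalGreen (extB N k) l ∧ gOf (extB N k) l 0 = 1 ∧
      (∃ g' : QSeries (extB N k), (∀ γ, g' γ ≠ 0 → ∀ i : Fin N, (i : ℕ) = 0 → γ i = 0) ∧
        gOf (extB N k) l = Aprod N k * g') ∧
      ∀ (j : Fin N) (m : ℕ), (j : ℕ) ≠ 0 → gOf (extB N k) l (Finsupp.single j m) = psi m := by
  obtain ⟨l, h1, h2⟩ := run_all (N := N) hk hN
  have hg : gOf (extB N k) l = Aprod N k * prodL (extB N k) (inner N k (N - 1)) := by
    unfold gOf
    rw [greenProd_eq, h2]
    rw [← prodL_first, ← prodL_append]
    rfl
  -- support of the inner part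
  have hin : ∀ γ, prodL (extB N k) (inner N k (N - 1)) γ ≠ 0 →
      ∀ i : Fin N, (i : ℕ) = 0 → γ i = 0 := by
    intro γ hγ i hi
    let S : AddSubmonoid (Fin N →₀ ℕ) :=
      { carrier := {γ | γ i = 0}
        zero_mem' := rfl
        add_mem' := by
          intro a b ha hb
          simp only [Set.mem_ofPred_eq, Finsupp.add_apply] at *
          omega }
    have : prodL (extB N k) (inner N k (N - 1)) ∈ supp (B := extB N k) S := by
      apply prodL_mem
      intro u hu
      obtain ⟨t, m, _, _, h3, rfl⟩ := mem_inner _ hu
      change (toN (U N k t m)) i = 0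
      rw [toN_apply, U_apply_zero i hi m h3]
      rfl
    exact this γ hγ
  have hA : ∀ γ, Aprod N k γ ≠ 0 → γ ≠ 0 → γ ⟨0, by omega⟩ ≠ 0 := by
    intro γ hγ hne
    let S : AddSubmonoid (Fin N →₀ ℕ) :=
      { carrier := {γ | γ = 0 ∨ γ ⟨0, by omega⟩ ≠ 0}
        zero_mem' := Or.inl rfl
        add_mem' := by
          intro a b ha hb
          simp only [Set.mem_ofPred_eq, Finsupp.add_apply] at *
          rcases ha with rfl | ha
          · simpa using hb
          · right; omega }
    have : Aprod N k ∈ supp (B := extB N k) S := by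
      rw [← prodL_first]
      apply prodL_mem
      intro u hu
      simp only [List.mem_map, List.mem_range] at hu
      obtain ⟨i, _, rfl⟩ := hu
      right
      rw [toN_apply]
      simp [eps]
    rcases this γ hγ with h | h
    · exact absurd h hne
    · exact h
  refine ⟨l, h1, ?_, ⟨prodL (extB N k) (inner N k (N - 1)), hin, hg⟩, ?_⟩
  · rw [hg, mul_zero_apply, Aprod_zero_apply, one_mul]
    have : ∀ L : List (Fin N → ℤ), prodL (extB N k) L 0 = 1 := by
      intro L
      induction L with
      | nil => exact one_zero
      | cons u L ih => rw [prodL_cons, mul_zero_apply, ih, Dil.dilog_zero_apply, one_mul]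
    exact this _
  · intro j m hj
    have hbb := extB_diag (k := k) j
    have ht : Triv j (Aprod N k) := by
      intro m
      by_cases hm : m = 0
      · subst hm
        simp [Aprod_zero_apply]
      · rw [if_neg hm]
        by_contra hne
        have h3 := hA _ hne (by simpa using hm)
        apply h3
        rw [Finsupp.single_apply, if_neg]
        intro hh
        rw [hh] at hj
        exact hj rfl
    rw [hg, ht.mul_left hbb]
    exact (face_inner hk j hj (N - 1) (by omega)).1 (by have := j.2; omega) m

end

end Vale.Agent.P066.Theta.Green
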