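import Vale.Agent.P066.Theta.Final
import Vale.Agent.P066.Theta.Comb.Main
import Vale.Agent.P066.Theta.H11.ToThetaData
import Vale.Agent.P066.Theta.H675.Green6

/-!
# Composition: good elements give the Shareshian-Wachs theorem

The remaining combinatorial inputs (blocks S3b, S6b) are hypotheses; `DavisonMandel` gives good
elements through the maximal green sequence of `exists_green`.
-/

set_option autoImplicit false

open Finset

namespace Vale.Agent.P066.Theta

/-- S3b, first half: coefficients of theta functions are positive. -/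
def S3bPos : Prop :=
  ∀ (N k : ℕ) (g : QSeries (extB N k)), g 0 = 1 → StrongPositivity g →
    ∀ (s : Fin N → ℤ) (F : QSeries (extB N k)), IsTheta g s F → ∀ γ, Pos (F γ)

/-- S3b, second half: strings. -/
def S3bStr : Prop :=
  ∀ (N k : ℕ) (g : QSeries (extB N k)), g 0 = 1 → StrongPositivity g →
    ∀ j : Fin N, (∀ m : ℕ, g (Finsupp.single j m) = psi m) → StringProp g j

open Classical in
/-- S6b: the trace formula for the products of the `E_d`. -/
def S6bProp : Prop :=
  ∀ (N k : ℕ) (T : ThetaData N k), 1 ≤ k → ∀ (M : ℕ) (μ : Fin M → ℕ) (γ : Fin N →₀ ℕ),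
    T.al γ ((List.ofFn fun i => Ek N k (μ i)).prod) =
      if IsC0 N k γ then ((List.ofFn fun i => Ek N k (μ i)).prod) γ else 0

/-- `DavisonMandel` gives good elements. -/
theorem goodElement_of_davisonMandel (DM : DavisonMandel) {N k : ℕ} (hN : 1 ≤ N) (hk : 1 ≤ k) :
    GoodElement N k := by
  obtain ⟨l, h1, h2, h3, h4⟩ := Green.exists_green hk hN
  exact ⟨gOf (extB N k) l, h2, DM N _ (Dil.extB_skew N k) l h1, h3, fun j m hj => h4 j m hj⟩

/-- Good elements give the Shareshian-Wachs theorem (with the inputs S3b, S6b). -/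
theorem sw_of_good (hP : S3bPos) (hS : S3bStr) (hC : S6bProp)
    (hg : ∀ N k : ℕ, 1 ≤ N → 1 ≤ k → GoodElement N k) {n : ℕ} (h : Fin n → Fin n)
    (hmono : Monotone h) :
    ∃ c : n.Partition → Polynomial ℤ, (∀ p k, 0 ≤ (c p).coeff k) ∧
      ∀ c' : n.Partition → Polynomial ℤ,
        (∀ N, chromaticQSF (unitIntervalGraph h) N =
          ∑ p : n.Partition,
            MvPolynomial.C (c' p) * MvPolynomial.esymmPart (Fin N) (Polynomial ℤ) p) ↔
          c' = c :=
  final_of_thetaData
    (fun N k hN hk => thetaData_of_good (hg N k hN hk) (hP N k) (hS N k))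
    (fun N k T hk M η => main_identity_of_class T M (hC N k T hk M) η) h hmono

/-- `DavisonMandel` gives the Shareshian-Wachs theorem (with the inputs S3b, S6b). -/
theorem sw_of_davisonMandel (hP : S3bPos) (hS : S3bStr) (hC : S6bProp) (DM : DavisonMandel)
    {n : ℕ} (h : Fin n → Fin n) (hmono : Monotone h) :
    ∃ c : n.Partition → Polynomial ℤ, (∀ p k, 0 ≤ (c p).coeff k) ∧
      ∀ c' : n.Partition → Polynomial ℤ,
        (∀ N, chromaticQSF (unitIntervalGraph h) N =
          ∑ p : n.Partition,
            MvPolynomial.C (c' p) * MvPolynomial.esymmPart (Fin N) (Polynomial ℤ) p) ↔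
          c' = c :=
  sw_of_good hP hS hC (fun _ _ hN hk => goodElement_of_davisonMandel DM hN hk) h hmono

end Vale.Agent.P066.Theta
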