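import Vale.Agent.P066.Theta.Ext

/-!
# Green sequences: lists of green `c`-vectors, relabelling
-/

set_option autoImplicit false

open Finset

namespace Vale.Agent.P066.Theta.Green

noncomputable section

section general

variable {r : ℕ} (B : Matrix (Fin r) (Fin r) ℤ)

/-- The list of the mutated `c`-vectors. -/
def greens : (Fin r → Fin r → ℤ) → List (Fin r) → List (Fin r → ℤ)
  | _, [] => []
  | c, k :: l => c k :: greens (mutC B c k) l

theorem greenProd_eq (c : Fin r → Fin r → ℤ) (l : List (Fin r)) :
    greenProd B c l = (greens B c l).foldr (fun u acc => dilog B (toN u) * acc) 1 := by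
  induction l generalizing c with
  | nil => rfl
  | cons k l ih => simp only [greenProd, greens, List.foldr_cons, ih]

/-- There is a green mutation sequence from `c` to a nonpositive seed with list of green
vectors `L`. -/
def Run (c : Fin r → Fin r → ℤ) (L : List (Fin r → ℤ)) : Prop :=
  ∃ l, GreenToEnd B c l ∧ greens B c l = L

variable {B}

theorem Run.nil {c : Fin r → Fin r → ℤ} (h : ∀ j i, c j i ≤ 0) : Run B c [] :=
  ⟨[], h, rfl⟩

theorem Run.cons {c : Fin r → Fin r → ℤ} {L : List (Fin r → ℤ)} (k : Fin r)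
    (h : ∀ i, 0 ≤ c k i) (H : Run B (mutC B c k) L) : Run B c (c k :: L) := by
  obtain ⟨l, h1, h2⟩ := H
  exact ⟨k :: l, ⟨h, h1⟩, by simp [greens, h2]⟩

theorem mutC_perm (σ : Equiv.Perm (Fin r)) (c : Fin r → Fin r → ℤ) (k : Fin r) :
    mutC B (fun j => c (σ j)) (σ.symm k) = fun j => mutC B c k (σ j) := by
  funext j
  unfold mutC
  have h : j = σ.symm k ↔ σ j = k := by
    constructor
    · rintro rfl; simp
    · rintro rfl; simp
  by_cases hj : j = σ.symm k
  · rw [if_pos hj, if_pos (h.1 hj)]; simp
  · rw [if_neg hj, if_neg (fun h' => hj (h.2 h'))]; simp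

theorem Run.perm {c : Fin r → Fin r → ℤ} {L : List (Fin r → ℤ)} (σ : Equiv.Perm (Fin r))
    (H : Run B c L) : Run B (fun j => c (σ j)) L := by
  obtain ⟨l, h1, h2⟩ := H
  refine ⟨l.map σ.symm, ?_, ?_⟩
  · clear h2
    induction l generalizing c with
    | nil => exact fun j i => h1 (σ j) i
    | cons k l ih =>
      simp only [List.map_cons, GreenToEnd]
      refine ⟨by simpa using h1.1, ?_⟩
      rw [mutC_perm]
      exact ih h1.2
  · clear h1
    induction l generalizing c L with
    | nil => exact h2
    | cons k l ih =>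
      simp only [List.map_cons, greens]
      rw [mutC_perm, ih (c := mutC B c k) rfl, ← h2]
      simp [greens]

theorem Run.step {c c' : Fin r → Fin r → ℤ} {L : List (Fin r → ℤ)} (k : Fin r)
    (σ : Equiv.Perm (Fin r)) (h : ∀ i, 0 ≤ c k i) (hm : ∀ j, mutC B c k (σ j) = c' j)
    (H : Run B c' L) : Run B c (c k :: L) := by
  refine Run.cons k h ?_
  have := H.perm σ.symm
  have e : (fun j => c' (σ.symm j)) = mutC B c k := by
    funext j
    rw [← hm]; simp
  rwa [e] at this

theorem omega_add_left (x y z : Fin r → ℤ) : omega B (x + y) z = omega B x z + omega B y z := by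
  simp only [omega, Pi.add_apply, add_mul, Finset.sum_add_distrib]

theorem omega_add_right (x y z : Fin r → ℤ) : omega B x (y + z) = omega B x y + omega B x z := by
  simp only [omega, Pi.add_apply, mul_add, Finset.sum_add_distrib]

theorem omega_neg_left (x z : Fin r → ℤ) : omega B (-x) z = -omega B x z := by
  simp only [omega, Pi.neg_apply, neg_mul, Finset.sum_neg_distrib]

theorem omega_neg_right (x z : Fin r → ℤ) : omega B x (-z) = -omega B x z := by
  simp only [omega, Pi.neg_apply, mul_neg, Finset.sum_neg_distrib]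

theorem omega_zero_left (z : Fin r → ℤ) : omega B 0 z = 0 := by
  simp [omega]

theorem omega_zero_right (z : Fin r → ℤ) : omega B z 0 = 0 := by
  simp [omega]

end general

section vectors

/-- `y_x`. -/
def Y (N x : ℕ) : Fin N → ℤ := fun i => if (i : ℕ) = x then 1 else 0

/-- `ε_x = y_0 + … + y_{x-1}`. -/
def eps (N x : ℕ) : Fin N → ℤ := fun i => if (i : ℕ) < x then 1 else 0

theorem eps_zero (N : ℕ) : eps N 0 = 0 := by
  funext i; simp [eps]

theorem eps_succ (N x : ℕ) : eps N (x + 1) = eps N x + Y N x := by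
  funext i
  simp only [eps, Y, Pi.add_apply]
  split_ifs <;> omega

/-- `y_t + y_{t-K} + … + y_{t-mK}`, `K = k + 1`. -/
def U (N k t : ℕ) : ℕ → Fin N → ℤ
  | 0 => Y N t
  | m + 1 => U N k t m + Y N (t - (m + 1) * (k + 1))

theorem omega_Y_left {N : ℕ} (B : Matrix (Fin N) (Fin N) ℤ) (x : Fin N) (u : Fin N → ℤ) :
    omega B (Y N x) u = ∑ j, B x j * u j := by
  unfold omega Y
  rw [Finset.sum_eq_single x]
  · simp
  · intro b _ hb
    have : (b : ℕ) ≠ x := fun h => hb (Fin.ext h)
    simp [this]
  · simp

theorem omega_Y_Y {N : ℕ} (B : Matrix (Fin N) (Fin N) ℤ) (x y : Fin N) :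
    omega B (Y N x) (Y N y) = B x y := by
  rw [omega_Y_left, Finset.sum_eq_single y]
  · simp [Y]
  · intro b _ hb
    have : (b : ℕ) ≠ y := fun h => hb (Fin.ext h)
    simp [Y, this]
  · simp

variable {N k : ℕ}

theorem wE_zero_right (a : ℕ) : wE k a 0 = 0 := by simp [wE]

theorem wE_zero_left (a : ℕ) : wE k 0 a = 0 := by simp [wE]

theorem omega_Y_eps (x : Fin N) : ∀ b : ℕ, b ≤ N →
    omega (extB N k) (Y N x) (eps N b) = wE k (x + 1) b - wE k x b := by
  intro b
  induction b with
  | zero => intro _; simp [eps_zero, omega_zero_right, wE_zero_right]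
  | succ b ih =>
    intro hb
    rw [eps_succ, omega_add_right, ih (by omega)]
    have := omega_Y_Y (extB N k) x ⟨b, by omega⟩
    simp only at this
    rw [this]
    simp only [extB]
    ring

theorem omega_eps_eps : ∀ a : ℕ, a ≤ N → ∀ b : ℕ, b ≤ N →
    omega (extB N k) (eps N a) (eps N b) = wE k a b := by
  intro a
  induction a with
  | zero => intro _ b _; simp [eps_zero, omega_zero_left, wE_zero_left]
  | succ a ih =>
    intro ha b hb
    rw [eps_succ, omega_add_left, ih (by omega) b hb]
    have := omega_Y_eps (k := k) (N := N) ⟨a, by omega⟩ b hb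
    simp only at this
    rw [this]
    ring

theorem omega_eps_Y {a : ℕ} (ha : a ≤ N) (y : Fin N) :
    omega (extB N k) (eps N a) (Y N y) = wE k a (y + 1) - wE k a y := by
  have h1 := omega_eps_eps (k := k) a ha (y + 1) y.2
  rw [eps_succ, omega_add_right, omega_eps_eps a ha y (le_of_lt y.2)] at h1
  linarith

end vectors

end

end Vale.Agent.P066.Theta.Green
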