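import Vale.Agent.P066.Theta.H675.Green1

/-!
# Pairings of the `c`-vectors of the green sequence of `P_{N,k}`
-/

set_option autoImplicit false

open Finset

namespace Vale.Agent.P066.Theta.Green

noncomputable section

/-- Kronecker delta on `ℤ`. -/
def dl (a b : ℤ) : ℤ := if a = b then 1 else 0

theorem dl_eq {a b c d : ℤ} (h : a - b = c - d) : dl a b = dl c d := by
  unfold dl
  have : a = b ↔ c = d := by omega
  simp only [this]

theorem dl_ne {a b : ℤ} (h : a ≠ b) : dl a b = 0 := if_neg h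

theorem dl_self (a : ℤ) : dl a a = 1 := if_pos rfl

theorem dl_nonneg (a b : ℤ) : 0 ≤ dl a b := by unfold dl; split_ifs <;> omega

theorem wE_eq {k a b : ℕ} (ha : 1 ≤ a) (hb : 1 ≤ b) :
    wE k a b = (if b < a ∧ a ≤ b + k then 1 else 0) - (if a < b ∧ b ≤ a + k then 1 else 0) := by
  unfold wE
  rw [if_neg (by omega)]
  split_ifs <;> omega

variable {N k : ℕ}

/-- `w(x, y+1) - w(x, y)`. -/
theorem wE_diff (hk : 1 ≤ k) {x y : ℕ} (hx : 1 ≤ x) (hy : 1 ≤ y) :
    wE k x (y + 1) - wE k x y =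
      dl x (y + k + 1) - dl x (y + 1) - dl x y + dl (x + k) y := by
  rw [wE_eq hx hy, wE_eq hx (by omega)]
  unfold dl
  split_ifs <;> omega

theorem extB_eq (hk : 1 ≤ k) (x y : Fin N) (hx : 1 ≤ (x : ℕ)) (hy : 1 ≤ (y : ℕ)) :
    extB N k x y = dl x (y + 1) + dl x (y + k) - dl x (y + k + 1) - dl (x + 1) y
      - dl (x + k) y + dl (x + k + 1) y := by
  have h1 := wE_diff hk (x := x + 1) (y := y) (by omega) hy
  have h2 := wE_diff hk (x := x) (y := y) hx hy
  have : extB N k x y = (wE k (x + 1) (y + 1) - wE k (x + 1) y) - (wE k x (y + 1) - wE k x y) := by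
    simp only [extB]; ring
  rw [this, h1, h2]
  push_cast
  have e1 : dl ((x : ℕ) + 1 : ℤ) ((y : ℕ) + k + 1) = dl (x : ℕ) ((y : ℕ) + k) := dl_eq (by ring)
  have e2 : dl ((x : ℕ) + 1 : ℤ) ((y : ℕ) + 1) = dl (x : ℕ) (y : ℕ) := dl_eq (by ring)
  have e3 : dl ((x : ℕ) + 1 + k : ℤ) (y : ℕ) = dl ((x : ℕ) + k + 1) (y : ℕ) := dl_eq (by ring)
  rw [e1, e2, e3]
  ring

/-- `ω(y_x, u_{t,m})`. -/
theorem omega_Y_U (hk : 1 ≤ k) (x : Fin N) (hx : 1 ≤ (x : ℕ)) {t : ℕ} (ht : t < N) :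
    ∀ m : ℕ, m * (k + 1) < t →
    omega (extB N k) (Y N x) (U N k t m) =
      dl x (t + k) + dl x (t + 1) + dl x (t - m * (k + 1)) + dl x (t - m * (k + 1) - (k + 1))
      - dl x t - dl x (t + k + 1) - dl x (t - m * (k + 1) - 1) - dl x (t - m * (k + 1) - k) := by
  intro m
  induction m with
  | zero =>
    intro hm
    have h := omega_Y_Y (extB N k) x ⟨t, ht⟩
    simp only at h
    simp only [U]
    rw [h, extB_eq hk x ⟨t, ht⟩ hx (by simp only; omega)]
    simp only [Nat.cast_zero, zero_mul, sub_zero]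
    have e1 : dl ((x : ℕ) + 1 : ℤ) t = dl (x : ℕ) (t - 1) := dl_eq (by ring)
    have e2 : dl ((x : ℕ) + k : ℤ) t = dl (x : ℕ) (t - k) := dl_eq (by ring)
    have e3 : dl ((x : ℕ) + k + 1 : ℤ) t = dl (x : ℕ) (t - (k + 1)) := dl_eq (by ring)
    rw [e1, e2, e3]
    ring
  | succ m ih =>
    intro hm
    have hm' : m * (k + 1) < t := by
      have : m * (k + 1) ≤ (m + 1) * (k + 1) := Nat.mul_le_mul_right _ (Nat.le_succ m)
      omega
    have hlt : t - (m + 1) * (k + 1) < N := by omega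
    have h := omega_Y_Y (extB N k) x ⟨t - (m + 1) * (k + 1), hlt⟩
    simp only at h
    simp only [U]
    rw [omega_add_right, ih hm', h, extB_eq hk x ⟨t - (m + 1) * (k + 1), hlt⟩ hx
      (by simp only; omega)]
    have hc : ((t - (m + 1) * (k + 1) : ℕ) : ℤ) = t - m * (k + 1) - (k + 1) := by
      rw [Nat.cast_sub hm.le]; push_cast; ring
    simp only [hc]
    push_cast
    generalize hs : (t : ℤ) - m * (k + 1) = s
    have hs' : (t : ℤ) - (m + 1) * (k + 1) = s - (k + 1) := by rw [← hs]; ring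
    rw [hs']
    have e1 : dl (x : ℕ) (s - (k + 1) + 1) = dl (x : ℕ) (s - k) := dl_eq (by ring)
    have e2 : dl (x : ℕ) (s - (k + 1) + k) = dl (x : ℕ) (s - 1) := dl_eq (by ring)
    have e3 : dl (x : ℕ) (s - (k + 1) + k + 1) = dl (x : ℕ) s := dl_eq (by ring)
    have e4 : dl ((x : ℕ) + 1 : ℤ) (s - (k + 1)) = dl (x : ℕ) (s - (k + 1) - 1) := dl_eq (by ring)
    have e5 : dl ((x : ℕ) + k : ℤ) (s - (k + 1)) = dl (x : ℕ) (s - (k + 1) - k) := dl_eq (by ring)
    have e6 : dl ((x : ℕ) + k + 1 : ℤ) (s - (k + 1)) = dl (x : ℕ) (s - (k + 1) - (k + 1)) :=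
      dl_eq (by ring)
    rw [e1, e2, e3, e4, e5, e6]
    ring

/-- `ω(ε_x, u_{t,m})`. -/
theorem omega_eps_U (hk : 1 ≤ k) {x : ℕ} (hx : 1 ≤ x) (hxN : x ≤ N) {t : ℕ} (ht : t < N) :
    ∀ m : ℕ, m * (k + 1) < t →
    omega (extB N k) (eps N x) (U N k t m) =
      dl x (t + k + 1) - dl x (t - m * (k + 1)) - dl x (t + 1)
        + dl x (t - m * (k + 1) + 1 - (k + 1)) := by
  intro m
  induction m with
  | zero =>
    intro hm
    have h := omega_eps_Y (k := k) hxN ⟨t, ht⟩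
    simp only at h
    simp only [U]
    rw [h, wE_diff hk hx (by omega)]
    simp only [Nat.cast_zero, zero_mul, sub_zero]
    have e1 : dl ((x : ℕ) + k : ℤ) t = dl (x : ℕ) (t + 1 - (k + 1)) := dl_eq (by ring)
    rw [e1]
    ring
  | succ m ih =>
    intro hm
    have hm' : m * (k + 1) < t := by
      have : m * (k + 1) ≤ (m + 1) * (k + 1) := Nat.mul_le_mul_right _ (Nat.le_succ m)
      omega
    have hlt : t - (m + 1) * (k + 1) < N := by omega
    have h := omega_eps_Y (k := k) hxN ⟨t - (m + 1) * (k + 1), hlt⟩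
    simp only at h
    simp only [U]
    rw [omega_add_right, ih hm', h, wE_diff hk hx (by omega)]
    have hc : ((t - (m + 1) * (k + 1) : ℕ) : ℤ) = t - m * (k + 1) - (k + 1) := by
      rw [Nat.cast_sub hm.le]; push_cast; ring
    simp only [hc]
    push_cast
    generalize hs : (t : ℤ) - m * (k + 1) = s
    have hs' : (t : ℤ) - (m + 1) * (k + 1) = s - (k + 1) := by rw [← hs]; ring
    rw [hs']
    have e1 : dl (x : ℕ) (s - (k + 1) + k + 1) = dl (x : ℕ) s := dl_eq (by ring)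
    have e2 : dl ((x : ℕ) + k : ℤ) (s - (k + 1)) = dl (x : ℕ) (s - (k + 1) + 1 - (k + 1)) :=
      dl_eq (by ring)
    have e3 : dl (x : ℕ) (s - (k + 1) + 1) = dl (x : ℕ) (s + 1 - (k + 1)) := dl_eq (by ring)
    rw [e1, e2, e3]
    ring

end

end Vale.Agent.P066.Theta.Green
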