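import Vale.Agent.P066.Theta.H675.Green2

/-!
# Pairings of the `c`-vectors of the green sequence of `P_{N,k}`, part 2
-/

set_option autoImplicit false

open Finset

namespace Vale.Agent.P066.Theta.Green

noncomputable section

variable {N k : ℕ}

theorem extB_skew (N k : ℕ) (i j : Fin N) : extB N k i j = -extB N k j i := by
  have h : ∀ a b, wE k a b = -wE k b a := by
    intro a b; unfold wE; split_ifs <;> omega
  simp only [extB]
  rw [h (i + 1) (j + 1), h i (j + 1), h (i + 1) j, h i j]
  ring

theorem omega_skew (x y : Fin N → ℤ) : omega (extB N k) x y = -omega (extB N k) y x := by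
  unfold omega
  rw [Finset.sum_comm, ← Finset.sum_neg_distrib]
  refine Finset.sum_congr rfl fun i _ => ?_
  rw [← Finset.sum_neg_distrib]
  refine Finset.sum_congr rfl fun j _ => ?_
  rw [extB_skew N k j i]
  ring

theorem U_shift (t : ℕ) : ∀ m : ℕ, U N k (t + (k + 1)) (m + 1) = Y N (t + (k + 1)) + U N k t m := by
  intro m
  induction m with
  | zero =>
    simp only [U]
    have : t + (k + 1) - (0 + 1) * (k + 1) = t := by omega
    rw [this]
  | succ m ih =>
    have e : U N k (t + (k + 1)) (m + 1 + 1) =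
      U N k (t + (k + 1)) (m + 1) + Y N (t + (k + 1) - (m + 1 + 1) * (k + 1)) := rfl
    have e2 : U N k t (m + 1) = U N k t m + Y N (t - (m + 1) * (k + 1)) := rfl
    have : t + (k + 1) - (m + 1 + 1) * (k + 1) = t - (m + 1) * (k + 1) := by
      rw [Nat.add_mul (m + 1) 1 (k + 1), one_mul]; omega
    rw [e, ih, e2, this, add_assoc]

theorem mul_lt_of_le {m m' t : ℕ} (h : m' ≤ m) (hm : m * (k + 1) < t) : m' * (k + 1) < t :=
  lt_of_le_of_lt (Nat.mul_le_mul_right _ h) hm

/-- `ω(u_{t,m'}, u_{t,m}) = -1` for `m' < m`. -/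
theorem omega_U_U (hk : 1 ≤ k) {t m : ℕ} (ht : t < N) (hm : m * (k + 1) < t) :
    ∀ m' : ℕ, m' < m → omega (extB N k) (U N k t m') (U N k t m) = -1 := by
  have key : ∀ a : ℕ, a < m →
      omega (extB N k) (Y N (t - a * (k + 1))) (U N k t m) = if a = 0 then -1 else 0 := by
    intro a ha
    have hak : a * (k + 1) + (k + 1) ≤ m * (k + 1) := by
      have := Nat.mul_le_mul_right (k + 1) (Nat.succ_le_of_lt ha)
      rwa [Nat.succ_mul] at this
    have h := omega_Y_U (N := N) hk ⟨t - a * (k + 1), by omega⟩ (by simp only; omega) ht m hm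
    simp only at h
    rw [h]
    have hc : ((t - a * (k + 1) : ℕ) : ℤ) = t - a * (k + 1) := by
      rw [Nat.cast_sub (by omega)]; push_cast; ring
    rw [hc]
    have hak' : (a : ℤ) * (k + 1) + (k + 1) ≤ m * (k + 1) := by exact_mod_cast hak
    have ha0 : (0 : ℤ) ≤ a * (k + 1) := by positivity
    have hk' : (1 : ℤ) ≤ k := by exact_mod_cast hk
    rw [dl_ne (by omega), dl_ne (by omega), dl_ne (by omega), dl_ne (by omega),
      dl_ne (b := (t : ℤ) + k + 1) (by omega), dl_ne (b := (t : ℤ) - m * (k + 1) - 1) (by omega),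
      dl_ne (b := (t : ℤ) - m * (k + 1) - k) (by omega)]
    by_cases h0 : a = 0
    · subst h0; simp [dl]
    · rw [if_neg h0]
      have : (k : ℤ) + 1 ≤ a * (k + 1) := by
        have : 1 * (k + 1) ≤ a * (k + 1) := Nat.mul_le_mul_right _ (by omega)
        have h' : ((1 * (k + 1) : ℕ) : ℤ) ≤ ((a * (k + 1) : ℕ) : ℤ) := by exact_mod_cast this
        push_cast at h'; linarith
      rw [dl_ne (by omega)]
      ring
  intro m'
  induction m' with
  | zero =>
    intro h
    have := key 0 h
    simpa [U] using this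
  | succ m' ih =>
    intro h
    have e : U N k t (m' + 1) = U N k t m' + Y N (t - (m' + 1) * (k + 1)) := rfl
    rw [e, omega_add_left, ih (by omega), key (m' + 1) h]
    simp

/-- the pairing of `y_y` with the full column sum ending at `x > y`. -/
theorem omega_Y_full (hk : 1 ≤ k) {x y : ℕ} (hx : x < N) (hy : 1 ≤ y) (hyx : y < x) :
    omega (extB N k) (Y N y) (U N k x ((x - 1) / (k + 1))) =
      dl y (x - ((x - 1) / (k + 1) : ℕ) * (k + 1)) - dl y (x - ((x - 1) / (k + 1) : ℕ) * (k + 1) - 1)
      - dl y (x - ((x - 1) / (k + 1) : ℕ) * (k + 1) - k) := by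
  have hm : (x - 1) / (k + 1) * (k + 1) < x := by
    have := Nat.div_mul_le_self (x - 1) (k + 1)
    omega
  have h := omega_Y_U (N := N) hk ⟨y, by omega⟩ (by simpa using hy) hx ((x - 1) / (k + 1)) hm
  simp only at h
  rw [h]
  have hr : x - 1 < ((x - 1) / (k + 1) + 1) * (k + 1) := by
    have := Nat.lt_div_mul_add (a := x - 1) (b := k + 1) (by omega)
    rw [Nat.add_mul, one_mul]; exact this
  have hr' : (x : ℤ) - 1 < (((x - 1) / (k + 1) : ℕ) + 1) * (k + 1) := by
    have : ((x - 1 : ℕ) : ℤ) < ((((x - 1) / (k + 1) + 1) * (k + 1) : ℕ) : ℤ) := by exact_mod_cast hr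
    rw [Nat.cast_sub (by omega)] at this
    push_cast at this
    simpa using this
  generalize (x - 1) / (k + 1) = q at *
  have hr'' : (x : ℤ) - q * (k + 1) ≤ k + 1 := by nlinarith
  have hy' : (1 : ℤ) ≤ y := by exact_mod_cast hy
  have hyx' : (y : ℤ) < x := by exact_mod_cast hyx
  rw [dl_ne (b := (x : ℤ) + k) (by omega), dl_ne (b := (x : ℤ) + 1) (by omega),
    dl_ne (b := (x : ℤ) - q * (k + 1) - (k + 1)) (by omega), dl_ne (b := (x : ℤ)) (by omega),
    dl_ne (b := (x : ℤ) + k + 1) (by omega)]
  ring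

theorem omega_U_full_ne (hk : 1 ≤ k) {t x : ℕ} (hx : x < N) (htx : t < x)
    (hxt : x < t + (k + 1)) : ∀ m : ℕ, m * (k + 1) < t →
    omega (extB N k) (U N k t m) (U N k x ((x - 1) / (k + 1))) ≤ 0 := by
  have key : ∀ a : ℕ, a * (k + 1) < t →
      omega (extB N k) (Y N (t - a * (k + 1))) (U N k x ((x - 1) / (k + 1))) ≤ 0 := by
    intro a ha
    rw [omega_Y_full hk hx (by omega) (by omega)]
    have hc : ((t - a * (k + 1) : ℕ) : ℤ) = t - a * (k + 1) := by
      rw [Nat.cast_sub ha.le]; push_cast; ring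
    rw [hc]
    have hne : (t : ℤ) - a * (k + 1) ≠ x - ((x - 1) / (k + 1) : ℕ) * (k + 1) := by
      intro h
      generalize ((x - 1) / (k + 1) : ℕ) = q at h
      have h1 : (x : ℤ) - t = ((q : ℤ) - a) * (k + 1) := by linarith
      have h2 : (0 : ℤ) < ((q : ℤ) - a) * (k + 1) := by rw [← h1]; omega
      have h3 : ((q : ℤ) - a) * (k + 1) < k + 1 := by rw [← h1]; omega
      have h4 : 0 < (q : ℤ) - a := by
        by_contra hh
        push Not at hh
        nlinarith
      nlinarith
    rw [dl_ne hne]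
    have := dl_nonneg ((t : ℤ) - a * (k + 1)) (x - ((x - 1) / (k + 1) : ℕ) * (k + 1) - 1)
    have := dl_nonneg ((t : ℤ) - a * (k + 1)) (x - ((x - 1) / (k + 1) : ℕ) * (k + 1) - k)
    linarith
  intro m
  induction m with
  | zero =>
    intro h
    simpa [U] using key 0 h
  | succ m ih =>
    intro h
    have e : U N k t (m + 1) = U N k t m + Y N (t - (m + 1) * (k + 1)) := rfl
    rw [e, omega_add_left]
    have h1 := ih (mul_lt_of_le (Nat.le_succ m) h)
    have h2 := key (m + 1) h
    linarith

theorem omega_U_full_eq (hk : 1 ≤ k) {t : ℕ} (hx : t + (k + 1) < N) : ∀ m : ℕ, m * (k + 1) < t →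
    omega (extB N k) (U N k t m) (U N k (t + (k + 1)) ((t + (k + 1) - 1) / (k + 1))) =
      if m = (t - 1) / (k + 1) then 1 else 0 := by
  have hq : ∀ a : ℕ, a * (k + 1) < t → (t + (k + 1) - 1) / (k + 1) = (t - 1) / (k + 1) + 1 := by
    intro a ha
    have : t + (k + 1) - 1 = (t - 1) + (k + 1) := by omega
    rw [this, Nat.add_div_right _ (by omega)]
  have key : ∀ a : ℕ, a * (k + 1) < t →
      omega (extB N k) (Y N (t - a * (k + 1))) (U N k (t + (k + 1)) ((t + (k + 1) - 1) / (k + 1)))
        = if a = (t - 1) / (k + 1) then 1 else 0 := by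
    intro a ha
    rw [omega_Y_full hk hx (by omega) (by omega)]
    have hc : ((t - a * (k + 1) : ℕ) : ℤ) = t - a * (k + 1) := by
      rw [Nat.cast_sub ha.le]; push_cast; ring
    rw [hc, hq a ha]
    generalize (t - 1) / (k + 1) = q
    push_cast
    have hk' : (1 : ℤ) ≤ k := by exact_mod_cast hk
    have e1 : dl ((t : ℤ) - a * (k + 1)) (t + (k + 1) - (q + 1) * (k + 1)) =
        if a = q then 1 else 0 := by
      unfold dl
      by_cases h : a = q
      · subst h; rw [if_pos rfl, if_pos (by ring)]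
      · rw [if_neg h, if_neg]
        intro h'
        apply h
        have h2 : ((a : ℤ) - q) * (k + 1) = 0 := by linarith
        rcases mul_eq_zero.1 h2 with h3 | h3
        · omega
        · omega
    have e2 : dl ((t : ℤ) - a * (k + 1)) (t + (k + 1) - (q + 1) * (k + 1) - 1) = 0 := by
      apply dl_ne
      intro h'
      have h2 : ((a : ℤ) - q) * (k + 1) = 1 := by linarith
      have h3 : (0 : ℤ) < (a : ℤ) - q := by
        by_contra hh
        push Not at hh
        nlinarith
      nlinarith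
    have e3 : dl ((t : ℤ) - a * (k + 1)) (t + (k + 1) - (q + 1) * (k + 1) - k) = 0 := by
      apply dl_ne
      intro h'
      have h2 : ((a : ℤ) - q) * (k + 1) = k := by linarith
      have h3 : (0 : ℤ) < (a : ℤ) - q := by
        by_contra hh
        push Not at hh
        nlinarith
      nlinarith
    rw [e1, e2, e3]
    ring
  intro m
  induction m with
  | zero =>
    intro h
    simpa [U] using key 0 h
  | succ m ih =>
    intro h
    have e : U N k t (m + 1) = U N k t m + Y N (t - (m + 1) * (k + 1)) := rfl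
    have hlt : m < (t - 1) / (k + 1) := by
      rw [Nat.lt_iff_add_one_le, Nat.le_div_iff_mul_le (by omega)]
      omega
    rw [e, omega_add_left, ih (mul_lt_of_le (Nat.le_succ m) h), key (m + 1) h, if_neg hlt.ne]
    ring

end

end Vale.Agent.P066.Theta.Green
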