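import Vale.Agent.P066.Theta.H675.Green3

/-!
# The maximal green sequence of `P_{N,k}`
-/

set_option autoImplicit false

open Finset

namespace Vale.Agent.P066.Theta.Green

noncomputable section

variable {N k : ℕ}

/-- The state after the passes `N-1, …, t+1`. -/
def st (N k t : ℕ) (j : Fin N) : Fin N → ℤ :=
  if (j : ℕ) = 0 then -eps N (t + 1) else if (j : ℕ) ≤ t then Y N j
    else if (j : ℕ) ≤ t + (k + 1) then -U N k j ((j - 1) / (k + 1)) else -Y N j

/-- The state inside the pass `t`, after `m` mutations. -/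
def mid (N k t m : ℕ) (j : Fin N) : Fin N → ℤ :=
  if (j : ℕ) = 0 then (if m = 0 then -eps N (t + 1) else -eps N t)
  else if (j : ℕ) = t then (if m = 0 then Y N t else -U N k t (m - 1))
  else if m ≠ 0 ∧ (j : ℕ) + m * (k + 1) = t then U N k t m else st N k t j

theorem mid_zero {t : ℕ} : mid N k t 0 = st N k t := by
  funext j
  unfold mid st
  by_cases h0 : (j : ℕ) = 0
  · simp [h0]
  · by_cases ht : (j : ℕ) = t
    · simp [ht]
    · simp [h0, ht]

/-- The next state. -/
def nxt (N k t m : ℕ) : Fin N → Fin N → ℤ :=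
  if (m + 1) * (k + 1) < t then mid N k t (m + 1) else st N k (t - 1)

theorem kick_zero {r : ℕ} (c u : Fin r → ℤ) {w : ℤ} (h : w ≤ 0) : c + max w 0 • u = c := by
  rw [max_eq_right h]; simp

theorem kick_one {r : ℕ} (c u : Fin r → ℤ) : c + max (1 : ℤ) 0 • u = c + u := by
  simp

theorem U_nonneg (t m : ℕ) (i : Fin N) : 0 ≤ U N k t m i := by
  induction m with
  | zero => simp only [U, Y]; split_ifs <;> omega
  | succ m ih =>
    have e : U N k t (m + 1) = U N k t m + Y N (t - (m + 1) * (k + 1)) := rfl
    rw [e, Pi.add_apply]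
    have : 0 ≤ Y N (t - (m + 1) * (k + 1)) i := by simp only [Y]; split_ifs <;> omega
    omega

theorem step (hk : 1 ≤ k) {t m : ℕ} (ht1 : 1 ≤ t) (ht : t < N) (hm : m * (k + 1) < t)
    (κ τ : Fin N) (hκ : (κ : ℕ) = t - m * (k + 1)) (hτ : (τ : ℕ) = t) (j : Fin N) :
    mutC (extB N k) (mid N k t m) κ (Equiv.swap κ τ j) = nxt N k t m j := by
  have hκ0 : (κ : ℕ) ≠ 0 := by omega
  have hmidκ : mid N k t m κ = U N k t m := by
    unfold mid
    rw [if_neg hκ0]
    by_cases h0 : m = 0
    · subst h0
      have : (κ : ℕ) = t := by omega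
      simp [this, U]
    · have hne : (κ : ℕ) ≠ t := by
        have : 1 * (k + 1) ≤ m * (k + 1) := Nat.mul_le_mul_right _ (by omega)
        omega
      rw [if_neg hne, if_pos ⟨h0, by omega⟩]
  have hq : m = (t - 1) / (k + 1) ↔ ¬ (m + 1) * (k + 1) < t := by
    constructor
    · intro h
      have := Nat.lt_div_mul_add (a := t - 1) (b := k + 1) (by omega)
      rw [← h] at this
      rw [Nat.add_mul, one_mul]; omega
    · intro h
      symm
      rw [Nat.div_eq_iff (by omega)]
      rw [Nat.add_mul, one_mul] at h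
      constructor
      · rw [mul_comm] at hm; rw [mul_comm]; omega
      · rw [mul_comm] at h; rw [mul_comm]; omega
  by_cases j0 : (j : ℕ) = 0
  · -- label 0
    have hjκ : j ≠ κ := fun h => hκ0 (h ▸ j0)
    have hjτ : j ≠ τ := fun h => by rw [h] at j0; omega
    rw [Equiv.swap_apply_of_ne_of_ne hjκ hjτ]
    unfold mutC
    rw [if_neg hjκ, hmidκ]
    have hres : nxt N k t m j = -eps N t := by
      unfold nxt
      split_ifs with hlt
      · unfold mid; rw [if_pos j0, if_neg (by omega)]
      · unfold st; rw [if_pos j0, Nat.sub_add_cancel ht1]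
    rw [hres]
    unfold mid
    rw [if_pos j0]
    by_cases h0 : m = 0
    · subst h0
      rw [if_pos rfl, omega_neg_left, omega_eps_U hk (by omega) (by omega) ht 0 (by omega)]
      have hk' : (1 : ℤ) ≤ k := by exact_mod_cast hk
      simp only [Nat.cast_zero, zero_mul, sub_zero]
      push_cast
      rw [dl_ne (b := (t : ℤ) + k + 1) (by omega), dl_ne (b := (t : ℤ)) (by omega),
        dl_ne (b := (t : ℤ) + 1 - (k + 1)) (by omega), dl_self]
      norm_num
      simp only [U]
      rw [eps_succ]
      abel
    · rw [if_neg h0, omega_neg_left, omega_eps_U hk (by omega) (by omega) ht m hm]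
      have hk' : (1 : ℤ) ≤ k := by exact_mod_cast hk
      have h1 : (k : ℤ) + 1 ≤ m * (k + 1) := by
        have : 1 * (k + 1) ≤ m * (k + 1) := Nat.mul_le_mul_right _ (by omega)
        have h' : ((1 * (k + 1) : ℕ) : ℤ) ≤ ((m * (k + 1) : ℕ) : ℤ) := by exact_mod_cast this
        push_cast at h'; linarith
      rw [dl_ne (b := (t : ℤ) + k + 1) (by omega), dl_ne (b := (t : ℤ) - m * (k + 1)) (by omega),
        dl_ne (b := (t : ℤ) + 1) (by omega),
        dl_ne (b := (t : ℤ) - m * (k + 1) + 1 - (k + 1)) (by omega)]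
      simp
  by_cases jt : (j : ℕ) = t
  · -- label t
    have : j = τ := Fin.ext (by omega)
    subst this
    rw [Equiv.swap_apply_right]
    unfold mutC
    rw [if_pos rfl, hmidκ]
    unfold nxt
    split_ifs with hlt
    · unfold mid
      rw [if_neg j0, if_pos jt, if_neg (by omega), Nat.add_sub_cancel]
    · have hmq := hq.2 hlt
      unfold st
      rw [if_neg j0, if_neg (by omega), if_pos (by omega), jt, ← hmq]
  have hjτ : j ≠ τ := fun h => jt (by rw [h]; exact hτ)
  by_cases jκ : j = κ
  · -- label κ ≠ t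
    subst jκ
    rw [Equiv.swap_apply_left]
    have h0 : m ≠ 0 := by rintro rfl; apply jt; omega
    unfold mutC
    rw [if_neg (fun h => hjτ h.symm), hmidκ]
    have hτm : mid N k t m τ = -U N k t (m - 1) := by
      unfold mid
      rw [if_neg (by omega), if_pos hτ, if_neg h0]
    rw [hτm, omega_neg_left, omega_U_U hk ht hm (m - 1) (by omega), neg_neg, kick_one]
    have e : U N k t m = U N k t (m - 1) + Y N (t - m * (k + 1)) := by
      obtain ⟨m', rfl⟩ := Nat.exists_eq_succ_of_ne_zero h0
      rfl
    have hres : nxt N k t m j = Y N j := by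
      unfold nxt
      split_ifs with hlt
      · unfold mid
        rw [if_neg j0, if_neg jt, if_neg]
        · unfold st
          rw [if_neg j0, if_pos (by omega)]
        · rintro ⟨_, h⟩
          rw [Nat.add_mul, one_mul] at h
          omega
      · unfold st
        rw [if_neg j0, if_pos (by omega)]
    rw [hres, e, hκ]
    abel
  -- the other labels
  rw [Equiv.swap_apply_of_ne_of_ne jκ hjτ]
  unfold mutC
  rw [if_neg jκ, hmidκ]
  have hmidj : mid N k t m j = st N k t j := by
    unfold mid
    rw [if_neg j0, if_neg jt, if_neg]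
    rintro ⟨_, h⟩
    apply jκ
    apply Fin.ext
    omega
  rw [hmidj]
  have hc : ((t - m * (k + 1) : ℕ) : ℤ) = t - m * (k + 1) := by
    rw [Nat.cast_sub hm.le]; push_cast; ring
  have hk' : (1 : ℤ) ≤ k := by exact_mod_cast hk
  have hjκ' : (j : ℤ) ≠ t - m * (k + 1) := by
    rw [← hc]; intro h; apply jκ; apply Fin.ext; rw [hκ]; exact_mod_cast h
  have hm0 : (0 : ℤ) ≤ m * (k + 1) := by positivity
  rcases Nat.lt_trichotomy (j : ℕ) t with hjt | hjt | hjt
  · -- 1 ≤ j < t
    have hst : st N k t j = Y N j := by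
      unfold st; rw [if_neg j0, if_pos hjt.le]
    rw [hst, omega_Y_U hk j (by omega) ht m hm]
    rw [dl_ne (b := (t : ℤ) + k) (by omega), dl_ne (b := (t : ℤ) + 1) (by omega),
      dl_ne (b := (t : ℤ) - m * (k + 1)) hjκ', dl_ne (b := (t : ℤ)) (by omega),
      dl_ne (b := (t : ℤ) + k + 1) (by omega)]
    by_cases hn : (j : ℕ) + (m + 1) * (k + 1) = t
    · have hlt : (m + 1) * (k + 1) < t := by omega
      have hn' : (j : ℤ) + (m + 1) * (k + 1) = t := by exact_mod_cast hn
      have e1 : (j : ℤ) = t - m * (k + 1) - (k + 1) := by linarith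
      rw [e1, dl_self, dl_ne (by omega), dl_ne (by omega)]
      norm_num
      unfold nxt
      rw [if_pos hlt]
      unfold mid
      rw [if_neg j0, if_neg jt, if_pos ⟨by omega, hn⟩]
      have e : U N k t (m + 1) = U N k t m + Y N (t - (m + 1) * (k + 1)) := rfl
      rw [e, add_comm]
      congr 2
      omega
    · have e1 : (j : ℤ) ≠ t - m * (k + 1) - (k + 1) := by
        intro h
        apply hn
        have : (j : ℤ) + (m + 1) * (k + 1) = t := by linarith
        exact_mod_cast this
      rw [dl_ne e1]
      have a1 := dl_nonneg (j : ℕ) ((t : ℤ) - m * (k + 1) - 1)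
      have a2 := dl_nonneg (j : ℕ) ((t : ℤ) - m * (k + 1) - k)
      rw [kick_zero _ _ (by linarith)]
      unfold nxt
      split_ifs with hlt
      · unfold mid
        rw [if_neg j0, if_neg jt, if_neg (by rintro ⟨_, h⟩; exact hn h), hst]
      · unfold st
        rw [if_neg j0, if_pos (by omega)]
  · exact absurd hjt jt
  · rcases Nat.lt_trichotomy (j : ℕ) (t + (k + 1)) with hj2 | hj2 | hj2
    · -- t < j < t + K
      have hst : st N k t j = -U N k j ((j - 1) / (k + 1)) := by
        unfold st; rw [if_neg j0, if_neg (by omega), if_pos hj2.le]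
      rw [hst, omega_skew, omega_neg_right, neg_neg,
        kick_zero _ _ (omega_U_full_ne hk j.2 hjt hj2 m hm)]
      unfold nxt
      split_ifs with hlt
      · unfold mid
        rw [if_neg j0, if_neg jt, if_neg (by rintro ⟨_, h⟩; omega), hst]
      · unfold st
        rw [if_neg j0, if_neg (by omega), if_pos (by omega)]
    · -- j = t + K
      have hst : st N k t j = -U N k j ((j - 1) / (k + 1)) := by
        unfold st; rw [if_neg j0, if_neg (by omega), if_pos hj2.le]
      have hjN : t + (k + 1) < N := by rw [← hj2]; exact j.2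
      rw [hst, omega_skew, omega_neg_right, neg_neg, hj2, omega_U_full_eq hk hjN m hm]
      unfold nxt
      by_cases hlt : (m + 1) * (k + 1) < t
      · rw [if_neg (fun h => hq.1 h hlt), if_pos hlt, kick_zero _ _ le_rfl]
        unfold mid
        rw [if_neg j0, if_neg jt, if_neg (by rintro ⟨_, h⟩; omega), hst, hj2]
      · have hmq := hq.2 hlt
        rw [if_pos hmq, if_neg hlt, kick_one]
        unfold st
        rw [if_neg j0, if_neg (by omega), if_neg (by omega), hj2]
        have : (t + (k + 1) - 1) / (k + 1) = m + 1 := by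
          have : t + (k + 1) - 1 = (t - 1) + (k + 1) := by omega
          rw [this, Nat.add_div_right _ (by omega), ← hmq]
        rw [this, U_shift]
        abel
    · -- j > t + K
      have hst : st N k t j = -Y N j := by
        unfold st; rw [if_neg j0, if_neg (by omega), if_neg (by omega)]
      rw [hst, omega_neg_left, omega_Y_U hk j (by omega) ht m hm]
      rw [dl_ne (b := (t : ℤ) + k) (by omega), dl_ne (b := (t : ℤ) + 1) (by omega),
        dl_ne (b := (t : ℤ) - m * (k + 1)) hjκ', dl_ne (b := (t : ℤ)) (by omega),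
        dl_ne (b := (t : ℤ) + k + 1) (by omega),
        dl_ne (b := (t : ℤ) - m * (k + 1) - (k + 1)) (by omega),
        dl_ne (b := (t : ℤ) - m * (k + 1) - 1) (by omega),
        dl_ne (b := (t : ℤ) - m * (k + 1) - k) (by omega)]
      rw [kick_zero _ _ (by norm_num)]
      unfold nxt
      split_ifs with hlt
      · unfold mid
        rw [if_neg j0, if_neg jt, if_neg (by rintro ⟨_, h⟩; omega), hst]
      · unfold st
        rw [if_neg j0, if_neg (by omega), if_neg (by omega)]

end

end Vale.Agent.P066.Theta.Green
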