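import Vale.Agent.P066.Theta.H675.Green4

/-!
# The maximal green sequence of `P_{N,k}`: the list of green vectors
-/

set_option autoImplicit false

open Finset

namespace Vale.Agent.P066.Theta.Green

noncomputable section

variable {N k : ℕ}

/-- Green vectors of the passes `t, t-1, …, 1`. -/
def inner (N k : ℕ) : ℕ → List (Fin N → ℤ)
  | 0 => []
  | t + 1 => (List.range (t / (k + 1) + 1)).map (U N k (t + 1)) ++ inner N k t

theorem swap_bijStep {t m : ℕ} (hk : 1 ≤ k) (ht1 : 1 ≤ t) (ht : t < N) (hm : m * (k + 1) < t)
    {L : List (Fin N → ℤ)} (H : Run (extB N k) (nxt N k t m) L) :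
    Run (extB N k) (mid N k t m) (U N k t m :: L) := by
  have hκN : t - m * (k + 1) < N := by omega
  have hs := step hk ht1 ht hm ⟨t - m * (k + 1), hκN⟩ ⟨t, ht⟩ rfl rfl
  have hmidκ : mid N k t m ⟨t - m * (k + 1), hκN⟩ = U N k t m := by
    unfold mid
    rw [if_neg (by simp only; omega)]
    by_cases h0 : m = 0
    · subst h0
      simp [U]
    · have hne : t - m * (k + 1) ≠ t := by
        have : 1 * (k + 1) ≤ m * (k + 1) := Nat.mul_le_mul_right _ (by omega)
        omega
      rw [if_neg hne, if_pos ⟨h0, by simp only; omega⟩]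
  have := Run.step (B := extB N k) (c := mid N k t m) (c' := nxt N k t m)
    ⟨t - m * (k + 1), hκN⟩ (Equiv.swap ⟨t - m * (k + 1), hκN⟩ ⟨t, ht⟩)
    (by rw [hmidκ]; exact U_nonneg t m) hs H
  rwa [hmidκ] at this

theorem run_mid (hk : 1 ≤ k) {t : ℕ} (ht : t + 1 < N) {L : List (Fin N → ℤ)}
    (H : Run (extB N k) (st N k t) L) : ∀ d m : ℕ, m + d = t / (k + 1) →
    Run (extB N k) (mid N k (t + 1) m)
      ((List.range (d + 1)).map (fun i => U N k (t + 1) (m + i)) ++ L) := by
  intro d
  induction d with
  | zero =>
    intro m hm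
    have hm' : m = t / (k + 1) := by omega
    have h1 : m * (k + 1) ≤ t := by rw [hm']; exact Nat.div_mul_le_self t (k + 1)
    have h2 : t < (m + 1) * (k + 1) := by
      have := Nat.lt_div_mul_add (a := t) (b := k + 1) (by omega)
      rw [← hm'] at this
      rw [Nat.add_mul, one_mul]; exact this
    have := swap_bijStep (N := N) (k := k) (t := t + 1) (m := m) hk (by omega) ht (by omega)
      (L := L) (by
        unfold nxt
        rw [if_neg (by omega)]
        simpa using H)
    simpa using this
  | succ d ih =>
    intro m hm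
    have h0 : m + 1 ≤ t / (k + 1) := by omega
    have h2 : (m + 1) * (k + 1) ≤ t := (Nat.le_div_iff_mul_le (by omega)).1 h0
    have h1 : m * (k + 1) < t + 1 := by
      rw [Nat.add_mul, one_mul] at h2; omega
    have := swap_bijStep (N := N) (k := k) (t := t + 1) (m := m) hk (by omega) ht h1
      (L := (List.range (d + 1)).map (fun i => U N k (t + 1) (m + 1 + i)) ++ L) (by
        unfold nxt
        rw [if_pos (by omega)]
        exact ih (m + 1) (by omega))
    have e : (List.range (d + 1 + 1)).map (fun i => U N k (t + 1) (m + i)) ++ L =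
        U N k (t + 1) m :: ((List.range (d + 1)).map (fun i => U N k (t + 1) (m + 1 + i)) ++ L) := by
      rw [List.range_succ_eq_map]
      simp only [List.map_cons, List.map_map, List.cons_append, Nat.add_zero]
      congr 2
      apply List.map_congr_left
      intro i _
      simp only [Function.comp_apply]
      congr 1
      omega
    rw [e]
    exact this

theorem run_st (hk : 1 ≤ k) : ∀ t : ℕ, t < N → Run (extB N k) (st N k t) (inner N k t) := by
  intro t
  induction t with
  | zero =>
    intro _
    apply Run.nil
    intro j i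
    unfold st
    split_ifs with h1 h2 h3
    · simp only [Pi.neg_apply, eps]; split_ifs <;> omega
    · omega
    · simp only [Pi.neg_apply]
      have := U_nonneg (k := k) (j : ℕ) ((j - 1) / (k + 1)) i
      omega
    · simp only [Pi.neg_apply, Y]; split_ifs <;> omega
  | succ t ih =>
    intro ht
    have := run_mid hk ht (ih (by omega)) (t / (k + 1)) 0 (by omega)
    rw [mid_zero] at this
    simpa [inner] using this

/-- The state after `m` of the first `N` mutations. -/
def fst (N m : ℕ) (j : Fin N) : Fin N → ℤ :=
  if (j : ℕ) = 0 then (if m = 0 then eps N 1 else -eps N m)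
  else if (j : ℕ) = m then eps N (m + 1) else Y N j

theorem step_first (hk : 1 ≤ k) {m : ℕ} (hm : m < N) (ζ μ : Fin N) (hζ : (ζ : ℕ) = 0)
    (hμ : (μ : ℕ) = m) (j : Fin N) :
    mutC (extB N k) (fst N m) μ (Equiv.swap ζ μ j) =
      if m + 1 < N then fst N (m + 1) j else st N k (N - 1) j := by
  have hμv : fst N m μ = eps N (m + 1) := by
    unfold fst
    by_cases h0 : m = 0
    · subst h0; simp [hμ]
    · rw [if_neg (by omega), if_pos hμ]
  by_cases j0 : (j : ℕ) = 0
  · have : j = ζ := Fin.ext (by omega)
    subst this
    rw [Equiv.swap_apply_left]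
    unfold mutC
    rw [if_pos rfl, hμv]
    split_ifs with h
    · unfold fst; rw [if_pos j0, if_neg (by omega)]
    · unfold st; rw [if_pos j0]
      congr 2; omega
  have hjζ : j ≠ ζ := fun h => j0 (by rw [h]; exact hζ)
  by_cases jm : (j : ℕ) = m
  · have : j = μ := Fin.ext (by omega)
    subst this
    rw [Equiv.swap_apply_right]
    unfold mutC
    rw [if_neg (fun h => hjζ h.symm), hμv]
    have h0 : m ≠ 0 := by omega
    have e : fst N m ζ = -eps N m := by unfold fst; rw [if_pos hζ, if_neg h0]
    rw [e, omega_neg_left, omega_eps_eps m hm.le (m + 1) hm, wE_eq (by omega) (by omega),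
      if_neg (by omega), if_pos (by omega)]
    norm_num
    have : -eps N m + eps N (m + 1) = Y N m := by rw [eps_succ]; abel
    rw [this]
    split_ifs with h
    · unfold fst; rw [if_neg j0, if_neg (by omega), jm]
    · unfold st; rw [if_neg j0, if_pos (by omega), jm]
  have hjμ : j ≠ μ := fun h => jm (by rw [h]; exact hμ)
  rw [Equiv.swap_apply_of_ne_of_ne hjζ hjμ]
  unfold mutC
  rw [if_neg hjμ, hμv]
  have e : fst N m j = Y N j := by unfold fst; rw [if_neg j0, if_neg jm]
  rw [e, omega_Y_eps j (m + 1) hm]
  by_cases h1 : (j : ℕ) = m + 1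
  · rw [if_pos (by omega), wE_eq (by omega) (by omega), wE_eq (by omega) (by omega),
      if_pos (by omega), if_neg (by omega), if_neg (by omega), if_neg (by omega)]
    norm_num
    unfold fst
    rw [if_neg j0, if_pos h1, h1, eps_succ N (m + 1)]
    abel
  · rw [kick_zero]
    · split_ifs with h
      · unfold fst; rw [if_neg j0, if_neg h1]
      · unfold st; rw [if_neg j0, if_pos (by omega)]
    · rw [wE_eq (by omega) (by omega), wE_eq (by omega) (by omega)]
      split_ifs <;> omega

theorem run_first (hk : 1 ≤ k) : ∀ d m : ℕ, m + d + 1 = N →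
    Run (extB N k) (fst N m)
      ((List.range (d + 1)).map (fun i => eps N (m + i + 1)) ++ inner N k (N - 1)) := by
  intro d
  induction d with
  | zero =>
    intro m hm
    have hN : 0 < N := by omega
    have hmN : m < N := by omega
    have hs := step_first hk hmN ⟨0, hN⟩ ⟨m, hmN⟩ rfl rfl
    have hμv : fst N m ⟨m, hmN⟩ = eps N (m + 1) := by
      unfold fst
      by_cases h0 : m = 0
      · subst h0; simp
      · rw [if_neg (by simpa using h0), if_pos rfl]
    have := Run.step (B := extB N k) (c := fst N m) (c' := st N k (N - 1)) ⟨m, hmN⟩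
      (Equiv.swap ⟨0, hN⟩ ⟨m, hmN⟩)
      (by rw [hμv]; intro i; simp only [eps]; split_ifs <;> omega)
      (by intro j; rw [hs j, if_neg (by omega)]) (run_st hk (N - 1) (by omega))
    rw [hμv] at this
    simpa using this
  | succ d ih =>
    intro m hm
    have hN : 0 < N := by omega
    have hmN : m < N := by omega
    have hs := step_first hk hmN ⟨0, hN⟩ ⟨m, hmN⟩ rfl rfl
    have hμv : fst N m ⟨m, hmN⟩ = eps N (m + 1) := by
      unfold fst
      by_cases h0 : m = 0
      · subst h0; simp
      · rw [if_neg (by simpa using h0), if_pos rfl]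
    have := Run.step (B := extB N k) (c := fst N m) (c' := fst N (m + 1)) ⟨m, hmN⟩
      (Equiv.swap ⟨0, hN⟩ ⟨m, hmN⟩)
      (by rw [hμv]; intro i; simp only [eps]; split_ifs <;> omega)
      (by intro j; rw [hs j, if_pos (by omega)]) (ih (m + 1) (by omega))
    rw [hμv] at this
    have e : (List.range (d + 1 + 1)).map (fun i => eps N (m + i + 1)) =
        eps N (m + 1) :: (List.range (d + 1)).map (fun i => eps N (m + 1 + i + 1)) := by
      rw [List.range_succ_eq_map]
      simp only [List.map_cons, List.map_map, Nat.add_zero]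
      congr 1
      apply List.map_congr_left
      intro i _
      simp only [Function.comp_apply]
      congr 1
      omega
    rw [e]
    exact this

/-- The maximal green sequence of `P_{N,k}` and the list of its green `c`-vectors. -/
theorem run_all (hk : 1 ≤ k) (hN : 1 ≤ N) :
    Run (extB N k) (fun j => Pi.single j 1)
      ((List.range N).map (fun i => eps N (i + 1)) ++ inner N k (N - 1)) := by
  have h := run_first (N := N) hk (N - 1) 0 (by omega)
  have e : fst N 0 = fun j => Pi.single j 1 := by
    funext j i
    unfold fst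
    by_cases h0 : (j : ℕ) = 0
    · rw [if_pos h0, if_pos rfl]
      simp only [eps, Pi.single_apply]
      have : (i : ℕ) < 1 ↔ i = j := by rw [Fin.ext_iff]; omega
      simp only [this]
    · rw [if_neg h0, if_neg h0]
      simp only [Y, Pi.single_apply]
      have : (i : ℕ) = j ↔ i = j := by rw [Fin.ext_iff]
      simp only [this]
  rw [e] at h
  have e2 : N - 1 + 1 = N := by omega
  rw [e2] at h
  simpa using h

end

end Vale.Agent.P066.Theta.Green
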